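import Crest.Agent.X261.Rn.Defs
import Crest.Agent.X261.Cov.A
import Crest.Agent.X261.E0.Defs
import Crest.Agent.X261.Bog.Defs
import Crest.Agent.R281.Kp0_487

/-!
# Row 261, SKELETON (helper52), file `Defs`: the statements consumed by the skeleton

All of them have local Kaehler potentials `H : KP A` on the given atlas as a hypothesis.

* `KpStmt` : potentials exist on a finer atlas and pull back to refinements;
* `GredK`, `EnK`, `JetK` : the versions with potentials of `GredStmt`, `EnStmt`, `JetStmt`;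
* `HalfB`  : the amenable half.
-/

set_option autoImplicit false
set_option linter.unusedSectionVars false

open Set Filter Topology MeasureTheory

namespace Crest.Agent.X261.Sk

open Crest.Agent.R275.Geo Crest.Agent.R275.Core144 Crest.Agent.R275.GC293
open Crest.Agent.R275.OmT75 (dl)
open Crest.Agent.R273.Defs_333 Crest.Agent.R273.Kah_333 Crest.Agent.R273.UCov_914
open Crest.Agent.R273.PB_835 (Ref LBih)
open Crest.Agent.R281.Kp_487 (KP kah)
open Crest.Agent.X261.Top Crest.Agent.X261.Rn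
open Crest.Agent.X261.Ans (HA)
open Crest.Agent.X261.Eqv (TP)
open Crest.Agent.X261.Cov.A (push)
open Crest.Agent.X261.Grp (JN)
open Crest.Agent.R189 (Amen)

noncomputable section

/-- potentials exist on a finer atlas, and pull back to refinements -/
def KpStmt : Prop :=
  ∀ (n : ℕ) (X : Type) [TopologicalSpace X] [T2Space X] [CompactSpace X] (A : Atl n X),
    (Kah A → ∃ (A' : Atl n X) (_ : Finite A'.ι) (H : KP A'), GoodA A' ∧ Nonempty (Part A') ∧
      Nonempty (Ref A' A id) ∧ LBih A' A id ∧ LBih A A' id ∧ H.Pos) ∧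
    ∀ A' : Atl n X, Ref A' A id → LBih A' A id → ∀ H : KP A, H.Pos → ∃ H' : KP A', H'.Pos

/-- GRED with potentials -/
def GredK : Prop :=
  ∀ (n : ℕ) (X : Type) [TopologicalSpace X] [T2Space X] [CompactSpace X] [ConnectedSpace X]
    (A : Atl n X) [Finite A.ι], GoodA A → Part A → ∀ H : KP A, H.Pos →
    ∀ (G : Type) [Group G] [Infinite G] (D : MonD A G), ConnectedSpace (D.cov G) →
      ∃ p : ℕ, 1 ≤ p ∧ p ≤ n ∧ Nonempty (Tube (D.atl G) G p)

/-- EN with potentials -/
def EnK : Prop :=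
  ∀ (n : ℕ) (X : Type) [TopologicalSpace X] [T2Space X] [CompactSpace X] [ConnectedSpace X]
    (A : Atl n X) [Finite A.ι], GoodA A → Part A → ∀ H : KP A, H.Pos →
    ∀ (G : Type) [Group G] (D : MonD A G), ConnectedSpace (D.cov G) →
    ∀ (p : ℕ), 1 ≤ p → p ≤ n → ∀ (F : Fol D p) (h : HM F.L),
      ∃ T : TP volume (HA.of (D.atl G)) G, T.wt = wtD D h ∧ (∀ x, T.φ x ≤ 0) ∧ Kes T

/-- JET with potentials -/
def JetK : Prop :=
  ∀ (n : ℕ) (X : Type) [TopologicalSpace X] [T2Space X] [CompactSpace X] [ConnectedSpace X]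
    (A : Atl n X) [Finite A.ι], GoodA A → Part A → ∀ H : KP A, H.Pos →
    ∀ (G : Type) [Group G] (D : MonD A G), ConnectedSpace (D.cov G) →
    ∀ (p : ℕ), 1 ≤ p → ∀ (F : Fol D p) (h : HM F.L), Pol F h →
      ∃ (m : ℕ) (s : Fin (p + 1) → A.ι → X → ℂ), 0 < m ∧ (∀ k, IsHS (F.L ^ m) univ (s k)) ∧
        ∃ i, ∃ x ∈ (A.e i).source, (wdg fun (k : Fin p) (a : Fin n) =>
          s 0 i x * dl A i a (s k.succ i) x - s k.succ i x * dl A i a (s 0 i) x) ≠ 0

/-- the amenable half -/
def HalfB : Prop :=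
  ∀ (n : ℕ) (X : Type) [TopologicalSpace X] [T2Space X] [CompactSpace X] [ConnectedSpace X]
    (A : Atl n X) [Finite A.ι], GoodA A → Part A → ∀ H : KP A, H.Pos → E0.NoBog A → Bog.NoBog A →
    ∀ (Γ : Type) [Group Γ] (D : MonD A Γ), SimplyConnectedSpace (D.cov Γ) →
    ∀ (N : Subgroup Γ) [N.Normal], JN (Γ ⧸ N) → Amen (Γ ⧸ N) → ∀ p : ℕ, 1 ≤ p → p ≤ n →
    ∀ (F : Fol (push D (QuotientGroup.mk' N)) p) (h : HM F.L), Nonempty (Pol F h)

theorem gredK_of (h : GredStmt) : GredK := fun n X _ _ _ _ A _ hA P H hH =>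
  h n X A hA P (kah H hH)

theorem enK_of (h : EnStmt) : EnK := fun n X _ _ _ _ A _ hA P H hH =>
  h n X A hA P (kah H hH)

theorem jetK_of (h : JetStmt) : JetK := fun n X _ _ _ _ A _ hA P H hH =>
  h n X A hA P (kah H hH)

end

end Crest.Agent.X261.Sk
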