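import Crest.Agent.X261.Sk.All
import Crest.Agent.X261.Fam13.Fin
import Crest.Agent.X261.En.Inst
import Crest.Agent.X261.Ni.Main
import Crest.Agent.X261.Rel.Main
import Crest.Agent.X261.Jet.Fin

/-! Row 261: all leaves plugged into the skeleton (helper97). -/

set_option autoImplicit false

namespace Crest.Agent.X261.Sk

theorem mainStmt : E0.MainStmt :=
  all_of En.Inst.datStmt Fam13.famStmt Ni.niStmt Rel.rel Jet.Mn.jetK

end Crest.Agent.X261.Sk
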