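import Crest.Agent.X261.Sk.Fin
import Crest.Agent.X261.Sh97.Key
import Crest.Agent.X261.EnP.Main
import Crest.Agent.X261.EqW.Fin
import Crest.Agent.X261.B88.Fin
import Crest.Agent.X261.Sep93.Main
import Crest.Agent.X261.Gauss.Main

/-!
# Row 261, SKELETON (helper52), file `All`: all proved packages are plugged in
-/

set_option autoImplicit false

namespace Crest.Agent.X261.Sk

theorem sepStmt : B88.SepStmt := fun _ _ _ _ _ _ _ _ _ P K _ _ D _ H _ _ => Sep93.sepH' D K P H

theorem halfB_of (hM : B88.FamStmt) (hN : B88.NIStmt) (hR : Rel.RelStmt) : HalfB :=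
  B88.halfB_of' sepStmt hM hN hR (Gauss.gauss_of_eqv EqW.eqvStmt)

/-- what is left -/
theorem all_of (hD : EnP.DatStmt) (hM : B88.FamStmt) (hN : B88.NIStmt) (hR : Rel.RelStmt)
    (hJ : JetK) : E0.MainStmt :=
  final_of Sh97.Key.gredK (EnP.enK_of hD) EqW.eqvStmt (halfB_of hM hN hR) hJ

end Crest.Agent.X261.Sk
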