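import Crest.Agent.X261.Sk.Defs
import Crest.Agent.X261.Cov.K

/-!
# Row 261, SKELETON, file `Kp`: potentials on refinements
-/

set_option autoImplicit false

open Set Filter Topology
open scoped Matrix ComplexConjugate

namespace Crest.Agent.X261.Sk

open Crest.Agent.R275.Geo Crest.Agent.R273.Map_835 Crest.Agent.R273.Hess_333
open Crest.Agent.R273.PB_835 (Ref LBih)
open Crest.Agent.R281.Kp_487 (KP cur wt_contDiffAt cur_posDef pos_of_cur)
open Crest.Agent.X261.Cov.K (pbKP wt_pb exists_setting)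

theorem pos_pbKP {n : ℕ} {X : Type} [TopologicalSpace X] {A A' : Atl n X} (R : Ref A' A id)
    (l : LBih A' A id) {H : KP A} (hH : H.Pos) : (pbKP l.toHolMap R H).Pos := by
  refine pos_of_cur fun k y hk => ?_
  have hj : y ∈ (A.e (R.r k)).source := R.sub k y hk
  have e1 := R281.KpK_487.hess_rd l.toHolMap hk hj (wt_contDiffAt H _ ((A.e _).map_source hj))
  have e2 : cur (pbKP l.toHolMap R H) k y =
      hess (fun w => H.wt (R.r k) (rd A' A id k (R.r k) w)) (A'.e k y) := by
    refine R273.HessB_333.hess_congr ?_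
    filter_upwards [(A'.e k).open_target.mem_nhds ((A'.e k).map_source hk)] with w hw
    exact wt_pb l.toHolMap R H hw
  rw [e2, e1]
  exact (R281.KpK_487.posDef_iff (l.det k (R.r k) y hk hj)).2 (cur_posDef hH _ hj)

theorem kpStmt : KpStmt := fun _ _ _ _ _ _ =>
  ⟨fun K => by
    obtain ⟨A', h1, H, h2, h3, h4, h5, h6, h7, -⟩ := exists_setting K
    exact ⟨A', h1, H, h2, h3, h4, h5, h6, h7⟩,
  fun _ R l H hH => ⟨pbKP l.toHolMap R H, pos_pbKP R l hH⟩⟩

end Crest.Agent.X261.Sk
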