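import Crest.Agent.X261.Sk.Main
import Crest.Agent.X261.Sk.Kp
import Crest.Agent.X261.Fol.Main
import Crest.Agent.X261.Rn.Main
import Crest.Agent.X261.Rn93.Pol

/-!
# Row 261, SKELETON (helper52), file `Fin`: the proved packages are plugged in
-/

set_option autoImplicit false

namespace Crest.Agent.X261.Sk

theorem polSh : Rn.PolSh := fun _ _ _ _ _ _ _ _ _ _ _ _ F h T hw h0 hS =>
  Rn93.pol_of_shell F h T hw h0 hS

theorem relnA (hQ : Eqv.EqvStmt) : Rn.RelnAStmt := Rn.relnA_of (Rn.relnB_of hQ) polSh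

/-- what is left -/
theorem final_of (hG : GredK) (hE : EnK) (hQ : Eqv.EqvStmt) (hB : HalfB) (hJ : JetK) :
    E0.MainStmt :=
  main_of kpStmt hG Fol.folStmt hE (relnA hQ) hB hJ

end Crest.Agent.X261.Sk
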