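import Crest.Agent.X261.Fol.Ref
import Crest.Agent.X261.Sk.Defs
import Crest.Agent.X261.E0.Main
import Crest.Agent.X261.E0.Br
import Crest.Agent.X261.Bog.Use
import Crest.Agent.R273.HM_333

/-!
# Row 261, SKELETON (helper52), file `Main`: the packages imply the theorem

* `li_of_wdg` : nonzero wedge product implies independence;
* `bog_of`    : the line bundle free form of `E0.NoBog`;
* `not_pol`   : `Pol` contradicts `E0.NoBog` (through `JetK`);
* `main_of`   : the skeleton.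
-/

set_option autoImplicit false
set_option linter.unusedSectionVars false

open Set Filter Topology

namespace Crest.Agent.X261.Sk

open Crest.Agent.R275.Geo Crest.Agent.R275.Core144 Crest.Agent.R275.GC293
open Crest.Agent.R273.Defs_333 Crest.Agent.R273.Kah_333 Crest.Agent.R273.UCov_914
open Crest.Agent.R281.Kp_487 (KP kah)
open Crest.Agent.X261.Top Crest.Agent.X261.Rn
open Crest.Agent.X261.Cov.A (push)
open Crest.Agent.X261.Fol (connected_ref simplyConnected_ref)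
open Crest.Agent.X261.Grp (JN VA)
open Crest.Agent.R189 (Amen)

noncomputable section

theorem li_of_wdg {n p : ℕ} {v : Fin p → Fin n → ℂ} (h : wdg v ≠ 0) : LinearIndependent ℂ v := by
  obtain ⟨S, hS⟩ := Function.ne_iff.1 h
  unfold wdg at hS
  split_ifs at hS with h1
  · exact Bog.li_of_minor _ hS
  · exact absurd rfl hS

variable {n : ℕ} {X : Type} [TopologicalSpace X] [T2Space X] [CompactSpace X] [ConnectedSpace X]
  {A : Atl n X}

theorem bog_of (h : E0.NoBog A) : Bog.NoBog A :=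
  Bog.noBog_of_lbNo fun B hB hf hP p hp L e he h0 _ hm s hs _ _ hx hli =>
    h B hB hf hP p hp L e he h0 (E0.low_of_rank hm hp s hs hx hli)

variable {G : Type} [Group G] {D : MonD A G} {p : ℕ}

theorem tOm_of (F : Fol D p) : E0.TOm F.L p F.e := ⟨F.tom.hol, F.tom.off, F.tom.deg, F.tom.tr⟩

theorem e_ne (F : Fol D p) : ∃ i x, F.e i x ≠ 0 := by
  obtain ⟨x⟩ : Nonempty X := inferInstance
  obtain ⟨i, hi⟩ := A.cover x
  by_contra h
  push Not at h
  exact Bog.cop_not_flat (F.cop i x hi) fun S => Eventually.of_forall fun y => by rw [h i y]; rfl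

theorem not_pol [Finite A.ι] (hJ : JetK) (hA : GoodA A) (P : Part A) {H : KP A} (hH : H.Pos)
    (hc : ConnectedSpace (D.cov G)) (hN : E0.NoBog A) (hp : 1 ≤ p) (F : Fol D p) (h : HM F.L)
    (Q : Pol F h) : False := by
  obtain ⟨m, s, hm, hs, i, x, hx, h0⟩ := hJ n X A hA P H hH G D hc p hp F h Q
  exact hN A (E0.Cmp.refl A) inferInstance ⟨P⟩ p hp F.L F.e (tOm_of F) (e_ne F)
    (E0.low_of_rank hm hp s hs hx (li_of_wdg h0))

/-- the non amenable half -/
theorem halfA [Finite A.ι] (hE : EnK) (hR : RelnAStmt) (hA : GoodA A) (P : Part A) {H : KP A}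
    (hH : H.Pos) (hc : ConnectedSpace (D.cov G)) (hG : JN G) (h1 : ¬ Amen G) (hp : 1 ≤ p)
    (hn : p ≤ n) (F : Fol D p) (h : HM F.L) : Nonempty (Pol F h) := by
  obtain ⟨T, h2, h3, h4⟩ := hE n X A hA P H hH G D hc p hp hn F h
  exact hR n (hp.trans hn) X A G D hc hG h1 p F h T h2 h3 h4

/-- **the skeleton** -/
theorem main_of (hK : KpStmt) (hG : GredK) (hF : FolStmt) (hE : EnK)
    (hR : RelnAStmt) (hB : HalfB) (hJ : JetK) : E0.MainStmt := by
  intro n X _ _ _ _ A₀ _ _ _ K hS Γ _ D₀ hfg hsc₀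
  by_contra hva
  obtain ⟨A, _, H, hA, ⟨P⟩, ⟨R₀⟩, a1, a2, hH⟩ := (hK n X A₀).1 K
  have hsc := simplyConnected_ref (F := Γ) D₀ R₀
  obtain ⟨N, hN, hJN⟩ := Grp.exists_JN (G := Γ) hva
  have := hJN.infinite
  have hc := Cov.A.connected_push (ref D₀ R₀) _ (QuotientGroup.mk'_surjective N)
  obtain ⟨p, hp, hn, ⟨T⟩⟩ := hG n X A hA P H hH (Γ ⧸ N) _ hc
  obtain ⟨A', _, R, hA', ⟨P'⟩, -, b1, b2, ⟨F⟩⟩ := hF n X A hA P (kah H hH) (Γ ⧸ N) _ hc p T
  obtain ⟨H', hH'⟩ := (hK n X A).2 A' R b1 H hH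
  have hN' : E0.NoBog A' :=
    ((E0.noBog_of_special hS K).cmp (E0.cmp_of_lBih a2 a1)).cmp (E0.cmp_of_lBih b2 b1)
  have hc' := connected_ref (F := Γ ⧸ N) (push (ref D₀ R₀) (QuotientGroup.mk' N)) R
  obtain ⟨h⟩ := R273.HM_333.exists_hm P' F.L
  obtain ⟨Q⟩ : Nonempty (Pol F h) := by
    by_cases ha : Amen (Γ ⧸ N)
    · exact hB n X A' hA' P' H' hH' hN' (bog_of hN') Γ (ref (ref D₀ R₀) R)
        (simplyConnected_ref _ R) N hJN ha p hp hn F h
    · exact halfA hE hR hA' P' hH' hc' hJN ha hp hn F h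
  exact not_pol hJ hA' P' hH' hc' hN' hp F h Q

end

end Crest.Agent.X261.Sk
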